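import Mathlib
import Vale.Agent.P225.Main

/-!
The Euclidean bound for rotationally symmetric metrics with `f' ≤ 1`, in every dimension.
-/

namespace Vale.Agent.Results.P225.RotationallySymmetric

open Vale.Agent.P225

theorem result :
    (∀ n : ℕ, 2 ≤ n → ∀ f : ℝ → ℝ, Warping f → ∀ k : ℕ, 1 ≤ k → ∀ d : ℝ, d < (k : ℝ) + 1 →
      FiniteDimensional ℝ (growthHarmonic n f d) ∧
        Module.finrank ℝ (growthHarmonic n f d)
          ≤ (n + k - 1).choose k + (n + k - 2).choose (k - 1)) ∧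
    (∀ f : ℝ → ℝ, ContDiff ℝ 2 f → f 0 = 0 → deriv f 0 = 1 → (∀ r, 0 < r → 0 < f r) →
      (∀ r, 0 ≤ r → deriv (deriv f) r ≤ 0) → Warping f) :=
  ⟨fun _ hn _ hf _ hk _ hd => growthHarmonic_bound hn hf hk hd,
    fun _ hf h0 h1 hp hc => warping_of_concave hf h0 h1 hp hc⟩

end Vale.Agent.Results.P225.RotationallySymmetric
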